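import Vale.Agent.P110.Dense

namespace Vale.Agent.Results.P110.PhaseSpeedDense

/-- If a long real Littlewood polynomial is close to flat then, on every arc `[θ₁, θ₂]`, its
normalised phase speed lies in every band `[α, β]` of values for a time bounded below, and the
clamped speed has total variation larger than any prescribed bound on that arc. -/
theorem result : ∀ θ₁ θ₂ α β M : ℝ, θ₁ < θ₂ → 0 ≤ α → α < β → β ≤ 1 →
    ∃ c : ℝ, 0 < c ∧ ∃ μ : ℝ, 0 < μ ∧ ∃ N0 : ℕ, ∀ N : ℕ, N0 ≤ N → ∀ ε : ℕ → ℝ,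
      (∀ k < N, ε k = 1 ∨ ε k = -1) →
      (∀ θ : ℝ, (1 - c) * Real.sqrt N ≤ ‖P110.lit N ε θ‖ ∧
        ‖P110.lit N ε θ‖ ≤ (1 + c) * Real.sqrt N) →
      ENNReal.ofReal μ ≤ MeasureTheory.volume
          {θ | θ ∈ Set.Icc θ₁ θ₂ ∧ P110.speed N ε θ ∈ Set.Icc α β} ∧
        ENNReal.ofReal M <
          eVariationOn (fun θ => max α (min β (P110.speed N ε θ))) (Set.Icc θ₁ θ₂) := by
  intro θ₁ θ₂ α β M hθ hα hαβ hβ
  obtain ⟨c1, hc1, μ, hμ, N1, H1⟩ := P110.speed_dense hθ hα hαβ hβ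
  obtain ⟨c2, hc2, N2, H2⟩ := P110.variation_on_arc hθ hα hαβ hβ M
  refine ⟨min c1 c2, lt_min hc1 hc2, μ, hμ, max N1 N2, fun N hN x hx hf => ?_⟩
  exact ⟨H1 N (le_trans (le_max_left _ _) hN) x hx
      (P110.Flat.mono hf (min_le_left _ _)),
    H2 N (le_trans (le_max_right _ _) hN) x hx (P110.Flat.mono hf (min_le_right _ _))⟩

end Vale.Agent.Results.P110.PhaseSpeedDense
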