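import Vale.Agent.P110.Ultraflat.Final
import Vale.Agent.P110.Ultraflat.Wave
import Vale.Agent.P110.Ultraflat.Core
import Vale.Agent.P110.Ultraflat.Packing
import Vale.Agent.P110.Ultraflat.Fresnel
import Vale.Agent.P110.Ultraflat.Glue
import Vale.Agent.P110.Ultraflat.Layout
import Vale.Agent.P110.Ultraflat.Relaxed
import Vale.Agent.P110.Ultraflat.Rounding
import Vale.Agent.P110.Ultraflat.Spencer

namespace Vale.Agent.Results.P110.UltraflatSequence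

open Finset

/-- Ultraflat sequences of real Littlewood polynomials exist, at every large length. -/
theorem result :
    (∀ c : ℝ, 0 < c → ∃ N0 : ℕ, ∀ N : ℕ, N0 ≤ N → ∃ ε : ℕ → ℝ, (∀ k < N, ε k = 1 ∨ ε k = -1) ∧
      ∀ z : ℂ, ‖z‖ = 1 → (1 - c) * Real.sqrt N ≤ ‖∑ k ∈ range N, (ε k : ℂ) * z ^ k‖ ∧
        ‖∑ k ∈ range N, (ε k : ℂ) * z ^ k‖ ≤ (1 + c) * Real.sqrt N) ∧
    ∃ ε : ℕ → ℕ → ℝ, (∀ n k, ε n k = 1 ∨ ε n k = -1) ∧ ∀ c : ℝ, 0 < c → ∃ n0 : ℕ, ∀ n : ℕ, n0 ≤ n →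
      ∀ z : ℂ, ‖z‖ = 1 → |‖∑ k ∈ range n, (ε n k : ℂ) * z ^ k‖ / Real.sqrt n - 1| ≤ c :=
  open P110.Ultra in
  answer_of (exists_of (relaxed_of waveStmt coreStmt packingStmt (layoutStmt fresnelStmt glueStmt))
    (roundingStmt spencerStmt))

end Vale.Agent.Results.P110.UltraflatSequence
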